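import Vale.Agent.P016.R2.H250.F
import Vale.Agent.P016.R2.H250.Rank
import Vale.Agent.P016.R2.H963.Pattern

namespace Vale.Agent.Results.P016.Simultaneous

open Vale.Agent.P016.FE Vale.Agent.P016.FE.H250 Vale.Agent.P016.H963

open Classical in
theorem result :
    ∃ K : ℕ,
    -- (1) all primes: one set of at most `K` exceptions, prescribed squares
    (∀ T : Set ℕ, (∀ l ∈ T, l.Prime) →
      ∃ E : Finset ℕ, (E : Set ℕ) ⊆ T ∧ E.card ≤ K ∧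
        ∀ F G : Finset ℕ, (F : Set ℕ) ⊆ T → Disjoint F E → (∀ l ∈ G, l.Prime ∧ l ∉ T) →
          ∃ c₁ : ℝ, 0 < c₁ ∧ ∀ x₀ : ℕ, ∃ x : ℕ, x₀ ≤ x ∧ c₁ * (x / (Real.log x) ^ 2) ≤
            (((Finset.range (x + 1)).filter (fun p : ℕ => p.Prime ∧
              (∀ l ∈ F, orderOf (l : ZMod p) = p - 1) ∧
              ∀ l ∈ G, IsSquare (l : ZMod p))).card : ℝ)) ∧
    -- (2) independent sets `U` of integers, pattern `T`, under Heath-Brown's condition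
    (∀ U T : Set ℤ, (∀ F : Finset ℤ, (F : Set ℤ) ⊆ U → Indep F ∧
        (Odd (F.filter (fun a : ℤ => a ∈ T)).card → ¬ IsSquare (∏ a ∈ F, a)) ∧
        (Even (F.filter (fun a : ℤ => a ∈ T)).card → ¬ IsSquare (-3 * ∏ a ∈ F, a))) →
      ∃ E : Finset ℤ, (E : Set ℤ) ⊆ U ∧ E.card ≤ K ∧ ∀ F : Finset ℤ, (F : Set ℤ) ⊆ U →
        ∃ c₁ : ℝ, 0 < c₁ ∧ ∀ x₀ : ℕ, ∃ x : ℕ, x₀ ≤ x ∧ c₁ * (x / (Real.log x) ^ 2) ≤
          (((Finset.range (x + 1)).filter (fun p : ℕ => p.Prime ∧ ∀ a ∈ F, ¬ (p : ℤ) ∣ a ∧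
            (IsSquare (a : ZMod p) ↔ a ∉ T) ∧
            (a ∉ E → if a ∈ T then orderOf (a : ZMod p) = p - 1
              else ∃ j : ℕ, orderOf (a : ZMod p) * 2 ^ j = p - 1))).card : ℝ)) ∧
    -- (3) all integers, with an exceptional set of multiplicative rank at most `K`
    (∀ χ : ℤ → ℤ, (∀ a, a ≠ 0 → χ a = 1 ∨ χ a = -1) →
        (∀ a b, a ≠ 0 → b ≠ 0 → χ (a * b) = χ a * χ b) → χ (-3) = -1 →
      ∃ B : Set ℤ, (∀ E : Finset ℤ, (E : Set ℤ) ⊆ B → Indep E → E.card ≤ K) ∧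
        (∀ y : ℕ, 1 ≤ y → ((Finset.Icc (-(y : ℤ)) y).filter (fun a : ℤ => a ≠ 0 ∧ a ∈ B)).card ≤
          2 * (Nat.log 2 y + 1) ^ K) ∧
        ∀ F : Finset ℤ, (0 : ℤ) ∉ F →
          ∃ c₁ : ℝ, 0 < c₁ ∧ ∀ x₀ : ℕ, ∃ x : ℕ, x₀ ≤ x ∧ c₁ * (x / (Real.log x) ^ 2) ≤
            (((Finset.range (x + 1)).filter (fun p : ℕ => p.Prime ∧ ∀ a ∈ F, ¬ (p : ℤ) ∣ a ∧
              (IsSquare (a : ZMod p) ↔ χ a = 1) ∧
              (a ∉ B → if χ a = -1 then orderOf (a : ZMod p) = p - 1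
                else ∃ j : ℕ, orderOf (a : ZMod p) * 2 ^ j = p - 1))).card : ℝ)) ∧
    -- (4) primes, in arithmetic progressions
    (∀ D b : ℕ, 4 ∣ D → 1 ≤ D → b < D → Nat.Coprime b D →
      (∀ q : ℕ, q.Prime → 3 ≤ q → q ∣ D → b % q ≠ 1) →
      ∀ T : Set ℕ, (∀ l ∈ T, l.Prime ∧ 5 ≤ l ∧ ¬ l ∣ D) →
      ∃ E : Finset ℕ, (E : Set ℕ) ⊆ T ∧ E.card ≤ K ∧
        ∀ F G : Finset ℕ, (F : Set ℕ) ⊆ T → Disjoint F E →
          (∀ l ∈ G, l.Prime ∧ 5 ≤ l ∧ ¬ l ∣ D ∧ l ∉ T) →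
          ∃ c₁ : ℝ, 0 < c₁ ∧ ∀ x₀ : ℕ, ∃ x : ℕ, x₀ ≤ x ∧ c₁ * (x / (Real.log x) ^ 2) ≤
            (((Finset.range (x + 1)).filter (fun p : ℕ => p.Prime ∧ p % D = b ∧
              (∀ l ∈ F, orderOf (l : ZMod p) = p - 1) ∧
              ∀ l ∈ G, IsSquare (l : ZMod p))).card : ℝ)) := by
  obtain ⟨K, c, η, hc, hη, hcore⟩ := core
  refine ⟨K, ?_, ?_, ?_, ?_⟩
  · -- (1)
    intro T hT
    obtain ⟨E, hE1, hE2, hE3⟩ := fixed_all hc hη hcore T hT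
    refine ⟨E, hE1, hE2, fun F G hF hFE hG => ?_⟩
    obtain ⟨c₁, hc₁, h⟩ := hE3 F G hF hFE hG
    exact ⟨c₁, hc₁, fun x₀ => Filter.frequently_atTop.1 h x₀⟩
  · -- (2)
    intro U T hU
    obtain ⟨E, hE1, hE2, hE3⟩ := pattern K c η hc hη hcore 1 0 U T (by
      intro F hF
      have hI := (hU F hF).1
      refine ⟨hI, hasCls_of_hb F (zero_notMem_of_indep hI) T ?_⟩
      intro F' hF'
      exact (hU F' (fun a ha => hF (hF' ha))).2)
    refine ⟨E, hE1, hE2, fun F hF => ?_⟩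
    obtain ⟨c₁, hc₁, h⟩ := hE3 F hF
    refine ⟨c₁, hc₁, fun x₀ => ?_⟩
    obtain ⟨x, hx, h⟩ := Filter.frequently_atTop.1 h x₀
    refine ⟨x, hx, h.trans ?_⟩
    have hsub : cnt 1 0 T F E x ⊆ (Finset.range (x + 1)).filter (fun p : ℕ => p.Prime ∧ ∀ a ∈ F,
        ¬ (p : ℤ) ∣ a ∧ (IsSquare (a : ZMod p) ↔ a ∉ T) ∧
            (a ∉ E → if a ∈ T then orderOf (a : ZMod p) = p - 1
              else ∃ j : ℕ, orderOf (a : ZMod p) * 2 ^ j = p - 1)) := by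
      intro p hp
      rw [mem_cnt] at hp
      obtain ⟨g1, g2, -, g4⟩ := hp
      rw [Finset.mem_filter, Finset.mem_range]
      refine ⟨by omega, g2, fun a ha => ?_⟩
      obtain ⟨i1, i2, i3⟩ := g4 a ha
      refine ⟨i1, i2, fun haE => ?_⟩
      by_cases haT : a ∈ T
      · rw [if_pos haT]
        exact primroot_of p g2 a (i3 haE) (fun h => (i2.1 h) haT)
      · rw [if_neg haT]
        exact i3 haE
    exact_mod_cast Finset.card_le_card hsub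
  · -- (3)
    intro χ h1 h2 h3
    obtain ⟨B, hB1, hB2⟩ := all_int K c η hc hη hcore (χ := χ) ⟨h1, h2, h3⟩
    refine ⟨B, hB1, ?_, fun F hF0 => ?_⟩
    · intro y hy
      apply rank_count K B hB1 y hy
      intro a ha
      rw [Finset.mem_filter, Finset.mem_Icc] at ha
      exact ⟨ha.2.1, ha.2.2, by omega⟩
    obtain ⟨c₁, hc₁, h⟩ := hB2 F
    refine ⟨c₁, hc₁, fun x₀ => ?_⟩
    obtain ⟨x, hx, h⟩ := Filter.frequently_atTop.1 h x₀
    refine ⟨x, hx, h.trans ?_⟩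
    have hsub : cntG K η χ F B x ⊆ (Finset.range (x + 1)).filter (fun p : ℕ => p.Prime ∧ ∀ a ∈ F,
        ¬ (p : ℤ) ∣ a ∧ (IsSquare (a : ZMod p) ↔ χ a = 1) ∧
              (a ∉ B → if χ a = -1 then orderOf (a : ZMod p) = p - 1
                else ∃ j : ℕ, orderOf (a : ZMod p) * 2 ^ j = p - 1)) := by
      intro p hp
      rw [mem_cntG] at hp
      obtain ⟨g1, g2, -, g4⟩ := hp
      rw [Finset.mem_filter, Finset.mem_range]
      refine ⟨by omega, g2, fun a ha => ?_⟩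
      obtain ⟨i1, i2, i3⟩ := g4 a ha (fun h => hF0 (h ▸ ha))
      refine ⟨i1, i2, fun haB => ?_⟩
      have hI : Ind2 p a := by
        by_contra hn
        exact haB (i3.2 hn)
      by_cases haT : χ a = -1
      · rw [if_pos haT]
        refine primroot_of p g2 a hI (fun h => ?_)
        have := i2.1 h
        rw [haT] at this
        norm_num at this
      · rw [if_neg haT]
        exact hI
    exact_mod_cast Finset.card_le_card hsub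
  · -- (4)
    intro D b h4 hD hb1 hb2 hb3 T hT
    obtain ⟨E, hE1, hE2, hE3⟩ := fixed_progression hc hη hcore D b h4 hD ⟨hb1, hb2, hb3⟩ T hT
    refine ⟨E, hE1, hE2, fun F G hF hFE hG => ?_⟩
    obtain ⟨c₁, hc₁, h⟩ := hE3 F G hF hFE hG
    refine ⟨c₁, hc₁, fun x₀ => ?_⟩
    obtain ⟨x, hx, h⟩ := Filter.frequently_atTop.1 h x₀
    exact ⟨x, hx, h⟩

end Vale.Agent.Results.P016.Simultaneous
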