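import Vale.Agent.P016.R2.H250.D
import Vale.Agent.P016.R2.H250.Rank
import Vale.Agent.P016.R2.H963.Window

namespace Vale.Agent.Results.P016.SmallBases

open Vale.Agent.P016.FE Vale.Agent.P016.FE.H250 Vale.Agent.P016.H963

open Classical in
theorem result :
    ∃ (K : ℕ) (c η : ℝ), 0 < c ∧ 0 < η ∧ η ≤ 1 ∧
    -- (1) uniform count: class `b` mod `D`, prescribed characters on `S`, at most `K`
    -- exceptions in every independent set of integers in `[-x^η, x^η]`, and at most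
    -- `2 (log₂ x + 1)^K` exceptions among all nonzero integers there
    (∀ A : ℝ, 0 < A → ∃ x₀ : ℕ, ∀ x : ℕ, x₀ ≤ x → ∀ (D b : ℕ) (S T : Finset ℕ),
      4 ∣ D → 1 ≤ D → b < D → Nat.Coprime b D →
      (∀ q : ℕ, q.Prime → 3 ≤ q → q ∣ D → b % q ≠ 1) →
      (∀ l ∈ S, l.Prime ∧ 5 ≤ l ∧ ¬ l ∣ D) → ((D * ∏ l ∈ S, l : ℕ) : ℝ) ≤ (Real.log x) ^ A →
      c / 4 ^ S.card * (x / (Nat.totient D * (Real.log x) ^ 2)) ≤
        (((Finset.range (x + 1)).filter (fun p : ℕ => p.Prime ∧ p % D = b ∧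
          (∀ l ∈ S, (IsSquare (l : ZMod p) ↔ l ∉ T)) ∧
          (∀ E : Finset ℤ, Indep E → (∀ a ∈ E, |(a : ℝ)| ≤ (x : ℝ) ^ η) →
            (E.filter (fun a : ℤ => ¬ ∃ j : ℕ, orderOf (a : ZMod p) * 2 ^ j = p - 1)).card ≤ K) ∧
          ((Finset.Icc (-(x : ℤ)) x).filter (fun a : ℤ => a ≠ 0 ∧ |(a : ℝ)| ≤ (x : ℝ) ^ η ∧
            ¬ ∃ j : ℕ, orderOf (a : ZMod p) * 2 ^ j = p - 1)).card ≤
              2 * (Nat.log 2 x + 1) ^ K)).card : ℝ)) ∧
    -- (2) every set of primes up to `A log log x` is, up to at most `K` elements, the set of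
    -- primitive roots among the primes up to `A log log x`, for many `p ≤ x`
    (∀ A : ℝ, 0 < A → ∃ x₀ : ℕ, ∀ x : ℕ, x₀ ≤ x → ∀ T : Set ℕ, ∃ E : Finset ℕ,
      (∀ l ∈ E, l.Prime ∧ l ∈ T ∧ (l : ℝ) ≤ A * Real.log (Real.log x)) ∧ E.card ≤ K ∧
      x / (Real.log x) ^ (2 * A * Real.log 4 + 3) ≤
        (((Finset.range (x + 1)).filter (fun p : ℕ => p.Prime ∧
          ∀ l : ℕ, l.Prime → (l : ℝ) ≤ A * Real.log (Real.log x) →
            (l ∈ T → l ∉ E → orderOf (l : ZMod p) = p - 1) ∧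
            (l ∉ T → IsSquare (l : ZMod p)))).card : ℝ)) := by
  obtain ⟨K, c, η, hc, hη, hcore⟩ := core
  refine ⟨K, c, min η 1, hc, lt_min hη one_pos, min_le_right _ _, ?_,
    fun A hA => window_roots hc hη hcore A hA⟩
  · -- (1)
    intro A hA
    obtain ⟨x₀, h⟩ := hcore A hA
    refine ⟨max x₀ 1, fun x hx D b S T h4 hD hb1 hb2 hb3 hS hDA => ?_⟩
    have hx1 : 1 ≤ x := (le_max_right _ _).trans hx
    have hpow : (x : ℝ) ^ (min η 1) ≤ (x : ℝ) ^ η :=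
      Real.rpow_le_rpow_of_exponent_le (by exact_mod_cast hx1) (min_le_left _ _)
    obtain ⟨G, hG, hcount⟩ := h x ((le_max_left _ _).trans hx)
    refine (hcount T S D b h4 hD ⟨hb1, hb2, hb3⟩ hS hDA).trans ?_
    have hsub : G.filter (fun p => p % D = b ∧ ∀ l ∈ S, (IsSquare (l : ZMod p) ↔ l ∉ T)) ⊆
        (Finset.range (x + 1)).filter (fun p : ℕ => p.Prime ∧ p % D = b ∧
          (∀ l ∈ S, (IsSquare (l : ZMod p) ↔ l ∉ T)) ∧
          (∀ E : Finset ℤ, Indep E → (∀ a ∈ E, |(a : ℝ)| ≤ (x : ℝ) ^ (min η 1)) →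
            (E.filter (fun a : ℤ => ¬ ∃ j : ℕ, orderOf (a : ZMod p) * 2 ^ j = p - 1)).card ≤ K) ∧
          ((Finset.Icc (-(x : ℤ)) x).filter (fun a : ℤ => a ≠ 0 ∧ |(a : ℝ)| ≤ (x : ℝ) ^ (min η 1) ∧
            ¬ ∃ j : ℕ, orderOf (a : ZMod p) * 2 ^ j = p - 1)).card ≤
              2 * (Nat.log 2 x + 1) ^ K) := by
      intro p hp
      rw [Finset.mem_filter] at hp
      obtain ⟨hpG, hpb, hpS⟩ := hp
      obtain ⟨g1, g2, -, g4⟩ := hG p hpG
      rw [Finset.mem_filter, Finset.mem_range]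
      have g5 : ∀ E : Finset ℤ, Indep E → (∀ a ∈ E, |(a : ℝ)| ≤ (x : ℝ) ^ (min η 1)) →
          (E.filter (fun a : ℤ => ¬ Ind2 p a)).card ≤ K :=
        fun E hE h => g4 E hE (fun a ha => (h a ha).trans hpow)
      refine ⟨by omega, g2, hpb, hpS, g5, ?_⟩
      apply rank_count K {a : ℤ | |(a : ℝ)| ≤ (x : ℝ) ^ (min η 1) ∧ ¬ Ind2 p a} _ x hx1
      · intro a ha
        rw [Finset.mem_filter, Finset.mem_Icc] at ha
        exact ⟨ha.2.1, ⟨ha.2.2.1, ha.2.2.2⟩, by omega⟩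
      · intro E hE hI
        have h7 : E.filter (fun a => ¬ Ind2 p a) = E :=
          Finset.filter_true_of_mem (fun a ha => (hE ha).2)
        have h8 := g5 E hI (fun a ha => (hE ha).1)
        rw [h7] at h8
        exact h8
    exact_mod_cast Finset.card_le_card hsub

end Vale.Agent.Results.P016.SmallBases
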