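import Vale.Agent.P016.R2.H250.W2
import Vale.Agent.P016.R2.H250.TupleZ
import Vale.Agent.P016.R2.H851.TupleG

namespace Vale.Agent.Results.P016.WeightedBases

open Vale.Agent.P016

/-- `φ(p-1)/(p-1)`, the proportion of primitive roots modulo the prime `p`. -/
noncomputable def W (p : ℕ) : ℝ := ((p - 1).totient : ℝ) / ((p - 1 : ℕ) : ℝ)

open Classical in
/-- The error term, with weight `u`, in the count of the primes `p ≤ x` modulo which the entries
`a i` with `i ∈ T` are primitive roots and the entries `a i` with `i ∉ T` are not. -/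
noncomputable def err (u : ℕ → ℝ) (x : ℕ) {r : ℕ} (T : Finset (Fin r)) (a : Fin r → ℤ) : ℝ :=
  ∑ p ∈ (Finset.range (x + 1)).filter Nat.Prime, u p *
    ((if ∀ i, (¬ (p : ℤ) ∣ a i ∧ orderOf (a i : ZMod p) = p - 1) ↔ i ∈ T then 1 else 0) -
      W p ^ T.card * (1 - W p) ^ (r - T.card))

lemma err_eq (u : ℕ → ℝ) (x : ℕ) {r : ℕ} (T : Finset (Fin r)) (a : Fin r → ℤ) :
    err u x T a = ∑ p ∈ Px x, u p * ((∏ i, if i ∈ T then fz p (a i) else 1 - fz p (a i)) -
      wt p ^ T.card * (1 - wt p) ^ (r - T.card)) := by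
  classical
  unfold err
  refine Finset.sum_congr rfl fun p _ => ?_
  congr 2
  have h : ∀ i : Fin r, (if i ∈ T then fz p (a i) else 1 - fz p (a i)) =
      if ((¬ (p : ℤ) ∣ a i ∧ orderOf (a i : ZMod p) = p - 1) ↔ i ∈ T) then 1 else 0 := by
    intro i
    unfold fz
    by_cases h1 : i ∈ T <;>
      by_cases h2 : (¬ (p : ℤ) ∣ a i ∧ orderOf (a i : ZMod p) = p - 1) <;> simp [h1, h2]
  simp only [h, Finset.prod_boole, Finset.mem_univ, true_implies]

open Classical in
theorem result :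
    -- (1) almost all tuples of primes `q ≤ Y` (and their multiples `m q`)
    (∀ κ δ D : ℝ, 0 < κ → 0 < δ → 0 ≤ D → ∃ c : ℝ, 0 < c ∧ ∃ x₀ : ℕ, ∀ x : ℕ, x₀ ≤ x →
      ∀ u : ℕ → ℝ, (∀ p, 0 ≤ u p ∧ u p ≤ 1) → ∀ Y r : ℕ, ∀ T : Finset (Fin r),
      ∀ m : Fin r → ℤ, (∀ i, m i ≠ 0 ∧ ((m i).natAbs.primeFactors.card : ℝ) ≤ Real.sqrt x) →
        (((Fintype.piFinset (fun _ : Fin r => (Finset.range (Y + 1)).filter Nat.Prime)).filter
          (fun q => r * (δ * (∑ p ∈ (Finset.range (x + 1)).filter Nat.Prime, W p) /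
            (Real.log x) ^ D) < |err u x T (fun i => m i * q i)|)).card : ℝ) ≤
          r * (((Finset.range (Y + 1)).filter Nat.Prime).card : ℝ) ^ (r - 1) *
            ((Y : ℝ) ^ (1 / 2 + κ) * (Real.log x) ^ (1 + 2 * D + κ) + Y * (x : ℝ) ^ (-c))) ∧
    -- (2) almost all tuples of integers in `[-y, y]`
    (∀ δ D : ℝ, 0 < δ → 0 ≤ D → ∃ K c : ℝ, 0 < c ∧ ∃ x₀ : ℕ, ∀ x : ℕ, x₀ ≤ x →
      ∀ u : ℕ → ℝ, (∀ p, 0 ≤ u p ∧ u p ≤ 1) → ∀ y : ℕ, (Real.log x) ^ K ≤ y → y ≤ x ^ 3 →
        ∀ r : ℕ, ∀ T : Finset (Fin r),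
        (((Fintype.piFinset (fun _ : Fin r => Finset.Icc (-(y : ℤ)) y)).filter
          (fun a => r * (δ * (∑ p ∈ (Finset.range (x + 1)).filter Nat.Prime, W p) /
            (Real.log x) ^ D) < |err u x T a|)).card : ℝ) ≤
          r * (2 * (y : ℝ) + 1) ^ (r - 1) * (y * Real.exp (-(c *
            ((Real.log y / Real.log (Real.log x)) *
              Real.log (Real.log y / Real.log (Real.log x))))))) := by
  constructor
  · intro κ δ D hκ hδ hD
    obtain ⟨c, hc, x₀, h⟩ := primeBasesW κ δ D hκ hδ hD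
    refine ⟨c, hc, x₀, fun x hx u hu Y r T m hm => ?_⟩
    have key := FE.H851.pattern (A := (Finset.range (Y + 1)).filter Nat.Prime) (Px x)
      ((Y : ℝ) ^ (1 / 2 + κ) * (Real.log x) ^ (1 + 2 * D + κ) + Y * (x : ℝ) ^ (-c))
      (δ * artinMain x / (Real.log x) ^ D) r
      (fun i p q => fz p (m i * q)) wt (fun i p q => ⟨fz_nonneg p _, fz_le_one p _⟩)
      (fun p => ⟨wt_nonneg p, wt_le_one p⟩) (by
        intro i u hu
        have h1 := h x hx u hu (m i) (hm i).1 (hm i).2 Y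
        rw [Finset.filter_filter]
        refine le_trans (le_of_eq ?_) h1
        congr!) T u hu
    refine le_trans (le_of_eq ?_) key
    simp only [err_eq]
    congr!
  · intro δ D hδ hD
    obtain ⟨K, -, c, hc, -, x₀, h⟩ := thmE_midW δ D hδ hD
    refine ⟨K, c, hc, x₀, fun x hx u hu y hy1 hy2 r T => ?_⟩
    have key := FE.H250.TupleZ.pattern (A := Finset.Icc (-(y : ℤ)) y) (Px x)
      (y * Real.exp (-(c * ((Real.log y / Real.log (Real.log x)) *
        Real.log (Real.log y / Real.log (Real.log x))))))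
      (δ * artinMain x / (Real.log x) ^ D) r
      (fun _ p a => fz p a) wt (fun _ p a => ⟨fz_nonneg p _, fz_le_one p _⟩)
      (fun p => ⟨wt_nonneg p, wt_le_one p⟩) (by
        intro _ u hu
        have h1 := h x hx u hu y hy1 hy2
        unfold BEw disc at h1
        refine le_trans (le_of_eq ?_) h1
        congr!) T u hu
    have hcard : (((Finset.Icc (-(y : ℤ)) y).card : ℕ) : ℝ) = 2 * (y : ℝ) + 1 := by
      rw [Int.card_Icc]
      have h2 : ((y : ℤ) + 1 - (-(y : ℤ))).toNat = 2 * y + 1 := by omega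
      rw [h2]
      push_cast
      ring
    rw [hcard] at key
    refine le_trans (le_of_eq ?_) key
    simp only [err_eq]
    congr!

end Vale.Agent.Results.P016.WeightedBases
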